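import Vale.Agent.P255.Riem.Defs

/-!
# P255: the Christoffel symbols as a bilinear map
-/

open scoped ContDiff Topology
open Set Filter

set_option maxSynthPendingDepth 3

namespace Vale.Agent.P255

theorem isInvertible_of_pos {B : Form 3} (h : ∀ a, a ≠ 0 → 0 < B a a) : B.IsInvertible := by
  have hinj : Function.Injective B.toLinearMap := fun a b hab => by
    by_contra hne
    have hab' : B a = B b := hab
    have h2 := h (a - b) (sub_ne_zero.2 hne)
    have h3 : B (a - b) = 0 := by rw [map_sub, sub_eq_zero.2 hab']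
    rw [h3] at h2
    exact lt_irrefl (0:ℝ) h2
  refine ⟨(LinearMap.linearEquivOfInjective B.toLinearMap hinj
    (by rw [(InnerProductSpace.toDual ℝ E3).toLinearEquiv.finrank_eq])).toContinuousLinearEquiv, ?_⟩
  ext a b
  simp

/-- the covector part of the Christoffel symbols -/
noncomputable def chrCov (DG : E3 →L[ℝ] E3 →L[ℝ] E3 →L[ℝ] ℝ) : E3 →L[ℝ] E3 →L[ℝ] E3 →L[ℝ] ℝ :=
  (1 / 2 : ℝ) • (DG + DG.flip -
    ((ContinuousLinearMap.flipₗᵢ ℝ E3 E3 ℝ).toContinuousLinearEquiv.toContinuousLinearMap).comp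
      DG.flip)

/-- the Christoffel symbols as a bilinear map -/
noncomputable def chrBil (G : E3 → Form 3) (y : E3) : E3 →L[ℝ] E3 →L[ℝ] E3 :=
  (ContinuousLinearMap.compL ℝ E3 (E3 →L[ℝ] ℝ) E3 (G y).inverse).comp (chrCov (fderiv ℝ G y))

theorem chrBil_apply (G : E3 → Form 3) (y u v : E3) : chrBil G y u v = christoffel G y u v := by
  simp [chrBil, chrCov, christoffel]

theorem christoffel_eq_of_spec {G : E3 → Form 3} {y u v W : E3} (hi : (G y).IsInvertible)
    (h : ∀ x, G y W x
      = (fderiv ℝ G y u v x + fderiv ℝ G y v u x - fderiv ℝ G y x u v) / 2) :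
    christoffel G y u v = W := by
  rw [christoffel, ← hi.inverse_apply_self (y := W)]
  congr 1
  ext x
  rw [h]
  simp
  ring

theorem curv_eq_chrBil {G : E3 → Form 3} {y : E3} (h : DifferentiableAt ℝ (chrBil G) y)
    (a b c : E3) :
    curv G y a b c = fderiv ℝ (chrBil G) y a b c - fderiv ℝ (chrBil G) y b a c
      + chrBil G y a (chrBil G y b c) - chrBil G y b (chrBil G y a c) := by
  have key : ∀ s e : E3,
      fderiv ℝ (fun z => christoffel G z e c) y s = fderiv ℝ (chrBil G) y s e c := fun s e => by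
    simp only [← chrBil_apply]
    rw [((h.hasFDerivAt.clm_apply (hasFDerivAt_const e y)).clm_apply (hasFDerivAt_const c y)).fderiv]
    simp
  simp only [curv, key, chrBil_apply]

end Vale.Agent.P255
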