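import Vale.Agent.P255.Riem.Chr

/-!
# P255 module B1: metric compatibility and the change of coordinates, for an arbitrary metric
-/

open scoped Manifold ContDiff
open Bundle Set Filter Topology

set_option maxSynthPendingDepth 3

namespace Vale.Agent.P255

variable {G : E3 → Form 3} {z X : ℝ → E3} {t : ℝ}

theorem two_le_top_smooth : minSmoothness ℝ 2 ≤ (∞ : WithTop ℕ∞) := by
  rw [minSmoothness_of_isRCLikeNormedField]
  exact WithTop.coe_le_coe.2 le_top

theorem MetricNear.invertible {y : E3} (h : MetricNear G y) : (G y).IsInvertible :=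
  isInvertible_of_pos h.pos.self_of_nhds

theorem MetricNear.differentiableAt {y : E3} (h : MetricNear G y) : DifferentiableAt ℝ G y :=
  h.smooth.self_of_nhds.differentiableAt (by norm_num)

theorem MetricNear.fderiv_apply {y : E3} (h : MetricNear G y) (a b c : E3) :
    fderiv ℝ G y a b c = fderiv ℝ (fun w => G w b c) y a := by
  rw [((h.differentiableAt.hasFDerivAt.clm_apply (hasFDerivAt_const b y)).clm_apply
    (hasFDerivAt_const c y)).fderiv]
  simp

theorem MetricNear.fderiv_symm {y : E3} (h : MetricNear G y) (a b c : E3) :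
    fderiv ℝ G y a b c = fderiv ℝ G y a c b := by
  rw [h.fderiv_apply, h.fderiv_apply]
  congr 1
  exact Filter.EventuallyEq.fderiv_eq (h.symm.mono fun w hw => hw b c)

theorem MetricNear.eventually_near {y : E3} (h : MetricNear G y) :
    ∀ᶠ w in 𝓝 y, MetricNear G w := by
  filter_upwards [h.smooth.eventually_nhds, h.symm.eventually_nhds, h.pos.eventually_nhds]
    with w h1 h2 h3 using ⟨h1, h2, h3⟩

/-- the defining property of the Christoffel symbols -/
theorem christoffel_spec {y : E3} (h : MetricNear G y) (u v w : E3) :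
    G y (christoffel G y u v) w
      = (fderiv ℝ G y u v w + fderiv ℝ G y v u w - fderiv ℝ G y w u v) / 2 := by
  rw [christoffel, h.invertible.self_apply_inverse]
  simp
  ring

theorem christoffel_symm {y : E3} (h : MetricNear G y) (u v : E3) :
    christoffel G y u v = christoffel G y v u :=
  christoffel_eq_of_spec h.invertible fun x => by
    rw [christoffel_spec h v u x, h.fderiv_symm x v u]
    ring

/-- metric compatibility at a point -/
theorem fderiv_metric {y : E3} (h : MetricNear G y) (a v w : E3) :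
    fderiv ℝ G y a v w = G y (christoffel G y a v) w + G y v (christoffel G y a w) := by
  rw [h.symm.self_of_nhds v, christoffel_spec h, christoffel_spec h, h.fderiv_symm w a v,
    h.fderiv_symm v a w, h.fderiv_symm a w v]
  ring

theorem contDiffAt_deriv_top {f : ℝ → E3} (hf : ContDiffAt ℝ ∞ f t) :
    ContDiffAt ℝ ∞ (deriv f) t :=
  (hf.fderiv_right le_rfl).clm_apply (contDiffAt_const (c := (1 : ℝ)))

theorem CurveNear.velocity (h : CurveNear G z X t) : CurveNear G z (deriv z) t :=
  ⟨h.metric, h.curve, contDiffAt_deriv_top h.curve⟩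

theorem contDiffAt_christoffel {F : Type} [NormedAddCommGroup F] [NormedSpace ℝ F] {x : F}
    {q u v : F → E3} (hq : ContDiffAt ℝ ∞ q x) (hu : ContDiffAt ℝ ∞ u x)
    (hv : ContDiffAt ℝ ∞ v x) (h : MetricNear G (q x)) :
    ContDiffAt ℝ ∞ (fun s => christoffel G (q s) (u s) (v s)) x := by
  have hG := h.smooth.self_of_nhds
  have h1 : ContDiffAt ℝ ∞ (fun s => G (q s)) x := hG.comp x hq
  have h2 : ContDiffAt ℝ ∞ (fun s => fderiv ℝ G (q s)) x :=
    (hG.fderiv_right le_rfl).comp x hq
  have hi : ContDiffAt ℝ ∞ (fun s => (G (q s)).inverse) x := by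
    obtain ⟨e, he⟩ := h.invertible
    have := ((ContinuousLinearMap.IsInvertible.contDiffAt_map_inverse (n := ∞) ⟨e, he⟩)).comp x h1
    exact this
  have hf3 : ContDiffAt ℝ ∞ (fun s => (fderiv ℝ G (q s)).flip) x :=
    ((ContinuousLinearMap.flipₗᵢ ℝ E3 E3 (E3 →L[ℝ] ℝ)).contDiff.contDiffAt).comp x h2
  have hf4 : ContDiffAt ℝ ∞ (fun s => ((fderiv ℝ G (q s)).flip (u s)).flip) x :=
    ((ContinuousLinearMap.flipₗᵢ ℝ E3 E3 ℝ).contDiff.contDiffAt).comp x (hf3.clm_apply hu)
  exact hi.clm_apply (((((h2.clm_apply hu).clm_apply hv).add ((h2.clm_apply hv).clm_apply hu)).sub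
    (hf4.clm_apply hv)).const_smul (1 / 2 : ℝ))

/-- metric compatibility, for any two fields along any curve -/
theorem hasDerivAt_pair {Y : ℝ → E3} (h : CurveNear G z X t) (hY : ContDiffAt ℝ ∞ Y t) :
    HasDerivAt (fun s => G (z s) (X s) (Y s))
      (G (z t) (covDeriv G z X t) (Y t) + G (z t) (X t) (covDeriv G z Y t)) t := by
  have hz := (h.curve.differentiableAt (by norm_num)).hasDerivAt
  have hX := (h.field.differentiableAt (by norm_num)).hasDerivAt
  have hY' := (hY.differentiableAt (by norm_num)).hasDerivAt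
  have hG : HasDerivAt (fun s => G (z s)) (fderiv ℝ G (z t) (deriv z t)) t :=
    h.metric.differentiableAt.hasFDerivAt.comp_hasDerivAt t hz
  refine ((hG.clm_apply hX).clm_apply hY').congr_deriv ?_
  simp only [covDeriv, add_apply, map_add,
    fderiv_metric h.metric (deriv z t) (X t) (Y t)]
  ring

theorem contDiffAt_covDeriv (h : CurveNear G z X t) : ContDiffAt ℝ ∞ (covDeriv G z X) t :=
  (contDiffAt_deriv_top h.field).add
    (contDiffAt_christoffel h.curve (contDiffAt_deriv_top h.curve) h.field h.metric)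

theorem CurveNear.cov (h : CurveNear G z X t) : CurveNear G z (covDeriv G z X) t :=
  ⟨h.metric, h.curve, contDiffAt_covDeriv h⟩

/-- `g(R(a,b)b,b) = 0` -/
theorem curv_radial {y : E3} (h : MetricNear G y) (a b : E3) :
    G y (curv G y a b b) b = 0 := by
  set f : E3 → ℝ := fun w => G w b b with hf
  have hf2 : ContDiffAt ℝ ∞ f y :=
    ((h.smooth.self_of_nhds.clm_apply contDiffAt_const).clm_apply contDiffAt_const)
  have hev : ∀ e : E3, (fun w => fderiv ℝ f w e) =ᶠ[𝓝 y]
      fun w => 2 * G w (christoffel G w e b) b := fun e => by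
    filter_upwards [h.eventually_near] with w hw
    rw [hf, ← hw.fderiv_apply, fderiv_metric hw, hw.symm.self_of_nhds b]
    ring
  have hsnd : ∀ s e : E3, fderiv ℝ (fderiv ℝ f) y s e = 2 * (G y
      (fderiv ℝ (fun w => christoffel G w e b) y s) b + G y (christoffel G y s (christoffel G y e b)) b
      + G y (christoffel G y e b) (christoffel G y s b)) := fun s e => by
    have hd := ((hf2.fderiv_right (m := ∞) le_rfl).differentiableAt (by norm_num)).hasFDerivAt
    have e1 : fderiv ℝ (fderiv ℝ f) y s e = fderiv ℝ (fun w => fderiv ℝ f w e) y s := by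
      rw [(hd.clm_apply (hasFDerivAt_const e y)).fderiv]
      simp
    have hc : HasFDerivAt (fun w => christoffel G w e b)
        (fderiv ℝ (fun w => christoffel G w e b) y) y :=
      ((contDiffAt_christoffel (F := E3) contDiffAt_id contDiffAt_const contDiffAt_const
        h).differentiableAt (by norm_num)).hasFDerivAt
    have h3 := ((h.differentiableAt.hasFDerivAt.clm_apply hc).clm_apply
      (hasFDerivAt_const b y)).const_mul 2
    rw [e1, (hev e).fderiv_eq, h3.fderiv]
    simp only [add_apply, smul_apply, ContinuousLinearMap.comp_apply, ContinuousLinearMap.flip_apply, zero_apply, map_zero, zero_add,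
      fderiv_metric h s (christoffel G y e b) b, smul_eq_mul]
    ring
  have hsym := (hf2.isSymmSndFDerivAt two_le_top_smooth).eq a b
  rw [hsnd, hsnd] at hsym
  have hs := h.symm.self_of_nhds (christoffel G y a b) (christoffel G y b b)
  simp only [curv, map_add, map_sub, add_apply, sub_apply]
  linarith

theorem hasDerivAt_speed (h : CurveNear G z X t) (hg : GeoAt G z t) :
    HasDerivAt (fun s => G (z s) (deriv z s) (deriv z s)) 0 t := by
  refine (hasDerivAt_pair h.velocity h.velocity.field).congr_deriv ?_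
  rw [show covDeriv G z (deriv z) t = 0 from hg]
  simp

theorem hasDerivAt_field_vel (h : CurveNear G z X t) (hg : GeoAt G z t) :
    HasDerivAt (fun s => G (z s) (X s) (deriv z s)) (G (z t) (covDeriv G z X t) (deriv z t)) t := by
  refine (hasDerivAt_pair h h.velocity.field).congr_deriv ?_
  rw [show covDeriv G z (deriv z) t = 0 from hg]
  simp

theorem JacAt.eq (hj : JacAt G z X t) : covDeriv G z (covDeriv G z X) t
    = -curv G (z t) (X t) (deriv z t) (deriv z t) :=
  eq_neg_of_add_eq_zero_left hj

theorem hasDerivAt_cov_vel (h : CurveNear G z X t) (hg : GeoAt G z t) (hj : JacAt G z X t) :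
    HasDerivAt (fun s => G (z s) (covDeriv G z X s) (deriv z s)) 0 t := by
  refine (hasDerivAt_field_vel h.cov hg).congr_deriv ?_
  rw [hj.eq, map_neg, neg_apply, curv_radial h.metric, neg_zero]

theorem hasDerivAt_sq (h : CurveNear G z X t) :
    HasDerivAt (fun s => G (z s) (X s) (X s)) (2 * fStd G z X t) t := by
  refine (hasDerivAt_pair h h.field).congr_deriv ?_
  rw [fStd, h.metric.symm.self_of_nhds (covDeriv G z X t)]
  ring

theorem hasDerivAt_fStd (h : CurveNear G z X t) (hj : JacAt G z X t) :
    HasDerivAt (fStd G z X)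
      (G (z t) (covDeriv G z X t) (covDeriv G z X t) - secForm G (z t) (X t) (deriv z t)) t := by
  refine (hasDerivAt_pair h h.cov.field).congr_deriv ?_
  rw [hj.eq, secForm, map_neg, h.metric.symm.self_of_nhds (X t)]
  ring

theorem hasDerivAt_cov_sq (h : CurveNear G z X t) (hj : JacAt G z X t) :
    HasDerivAt (fun s => G (z s) (covDeriv G z X s) (covDeriv G z X s))
      (-2 * G (z t) (curv G (z t) (X t) (deriv z t) (deriv z t)) (covDeriv G z X t)) t := by
  refine (hasDerivAt_sq h.cov).congr_deriv ?_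
  rw [fStd, h.metric.symm.self_of_nhds (covDeriv G z X t), hj.eq, map_neg, neg_apply]
  ring

/-- `φ` pulls `G'` back to `G` near `y` -/
def PullsBack (φ : E3 → E3) (G G' : E3 → Form 3) (y : E3) : Prop :=
  ContDiffAt ℝ ∞ φ y ∧ MetricNear G' (φ y) ∧
    ∀ᶠ w in 𝓝 y, G w = (G' (φ w)).bilinearComp (fderiv ℝ φ w) (fderiv ℝ φ w)

/-- derivative of a pulled back metric -/
theorem fderiv_pullback {φ : E3 → E3} {G' : E3 → Form 3} {y : E3}
    (hG : MetricNear G y) (hp : PullsBack φ G G' y) (a b c : E3) :
    fderiv ℝ G y a b c = fderiv ℝ G' (φ y) (fderiv ℝ φ y a) (fderiv ℝ φ y b) (fderiv ℝ φ y c)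
      + G' (φ y) (fderiv ℝ (fderiv ℝ φ) y a b) (fderiv ℝ φ y c)
      + G' (φ y) (fderiv ℝ φ y b) (fderiv ℝ (fderiv ℝ φ) y a c) := by
  obtain ⟨hφ, hG', he⟩ := hp
  rw [hG.fderiv_apply, Filter.EventuallyEq.fderiv_eq (he.mono fun w hw => show G w b c = G' (φ w) (fderiv ℝ φ w b)
    (fderiv ℝ φ w c) by rw [hw]; rfl)]
  have hd := (hφ.differentiableAt (by norm_num)).hasFDerivAt
  have hd2 := ((hφ.fderiv_right (m := ∞) le_rfl).differentiableAt (by norm_num)).hasFDerivAt
  have h1 := (((hG'.differentiableAt.hasFDerivAt.comp y hd).clm_apply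
    (hd2.clm_apply (hasFDerivAt_const b y))).clm_apply (hd2.clm_apply (hasFDerivAt_const c y)))
  simp only [Function.comp_apply] at h1
  rw [h1.fderiv]
  simp
  ring

theorem christoffel_transform {φ : E3 → E3} {G' : E3 → Form 3} {y : E3}
    (hG : MetricNear G y) (hp : PullsBack φ G G' y) (u v : E3) :
    fderiv ℝ φ y (christoffel G y u v)
      = fderiv ℝ (fderiv ℝ φ) y u v
        + christoffel G' (φ y) (fderiv ℝ φ y u) (fderiv ℝ φ y v) := by
  have hφ := hp.1
  have hG' := hp.2.1
  set A := fderiv ℝ φ y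
  have he : ∀ p q : E3, G y p q = G' (φ y) (A p) (A q) := fun p q => by
    rw [hp.2.2.self_of_nhds]; rfl
  have hinj : Function.Injective A := (injective_iff_map_eq_zero A).2 fun p hp0 => by
    by_contra hne
    have := hG.pos.self_of_nhds p hne
    rw [he, hp0] at this
    simp at this
  have hsurj : Function.Surjective A :=
    (LinearMap.injective_iff_surjective (f := A.toLinearMap)).1 hinj
  have hB := (hφ.isSymmSndFDerivAt two_le_top_smooth)
  rw [← sub_eq_zero]
  by_contra hne
  obtain ⟨w, hw⟩ := hsurj (A (christoffel G y u v)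
    - (fderiv ℝ (fderiv ℝ φ) y u v + christoffel G' (φ y) (A u) (A v)))
  have hpos := hG'.pos.self_of_nhds _ hne
  nth_rewrite 2 [← hw] at hpos
  simp only [map_sub, map_add, sub_apply, add_apply, ← he, christoffel_spec hG,
    christoffel_spec hG', fderiv_pullback hG hp] at hpos
  have s1 := hB.eq u v
  have s2 := hB.eq u w
  have s3 := hB.eq v w
  rw [s1, s2, s3] at hpos
  have sy := hG'.symm.self_of_nhds
  rw [sy (A v) (fderiv ℝ (fderiv ℝ φ) y w u)] at hpos
  linarith

theorem covDeriv_transform {φ : E3 → E3} {G' : E3 → Form 3}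
    (h : CurveNear G z X t) (hp : PullsBack φ G G' (z t)) :
    covDeriv G' (fun s => φ (z s)) (fun s => fderiv ℝ φ (z s) (X s)) t
      = fderiv ℝ φ (z t) (covDeriv G z X t) := by
  have hz := (h.curve.differentiableAt (by norm_num)).hasDerivAt
  have hX := (h.field.differentiableAt (by norm_num)).hasDerivAt
  have hd := (hp.1.differentiableAt (by norm_num)).hasFDerivAt
  have hd2 := ((hp.1.fderiv_right (m := ∞) le_rfl).differentiableAt (by norm_num)).hasFDerivAt
  have h1 : HasDerivAt (fun s => φ (z s)) (fderiv ℝ φ (z t) (deriv z t)) t :=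
    hd.comp_hasDerivAt t hz
  have h2 : HasDerivAt (fun s => fderiv ℝ φ (z s) (X s))
      (fderiv ℝ (fderiv ℝ φ) (z t) (deriv z t) (X t) + fderiv ℝ φ (z t) (deriv X t)) t :=
    (hd2.comp_hasDerivAt t hz).clm_apply hX
  simp only [covDeriv, h1.deriv, h2.deriv, map_add, christoffel_transform h.metric hp]
  abel

end Vale.Agent.P255
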