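import Vale.Agent.P255.Riem.Compat

/-!
# P255 module B0: from the manifold to coordinates, for an arbitrary metric
-/

open scoped Manifold ContDiff
open Bundle Set Filter Topology

namespace Vale.Agent.P255

variable {M : Type} [TopologicalSpace M] [ChartedSpace E3 M] [IsManifold (𝓡 3) ∞ M]

/-- the curve read in the chart at `x` -/
noncomputable def curveIn (γ : ℝ → M) (x : M) (s : ℝ) : E3 := extChartAt (𝓡 3) x (γ s)

variable (x : M)

lemma contMDiffOn_extChart : ContMDiffOn (𝓡 3) (𝓡 3) ∞ (extChartAt (𝓡 3) x)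
    (extChartAt (𝓡 3) x).source := by
  rw [extChartAt_source]; exact contMDiffOn_extChartAt

lemma mdifferentiableAt_extChart {p : M} (hp : p ∈ (extChartAt (𝓡 3) x).source) :
    MDifferentiableAt (𝓡 3) (𝓡 3) (extChartAt (𝓡 3) x) p :=
  mdifferentiableAt_extChartAt (by simpa using hp)

lemma mdifferentiableAt_extChart_symm {y : E3} (hy : y ∈ (extChartAt (𝓡 3) x).target) :
    MDifferentiableAt (𝓡 3) (𝓡 3) (extChartAt (𝓡 3) x).symm y :=
  (((contMDiffOn_extChartAt_symm (n := ∞) x).contMDiffAt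
    ((isOpen_extChartAt_target x).mem_nhds hy)).mdifferentiableAt (by norm_num))

lemma extChart_symm_deriv_comp {p : M} (hp : p ∈ (extChartAt (𝓡 3) x).source)
    (a : TangentSpace (𝓡 3) p) :
    mfderiv (𝓡 3) (𝓡 3) (extChartAt (𝓡 3) x).symm (extChartAt (𝓡 3) x p)
      (mfderiv (𝓡 3) (𝓡 3) (extChartAt (𝓡 3) x) p a) = a := by
  have h1 := mfderiv_comp p (mdifferentiableAt_extChart_symm x ((extChartAt (𝓡 3) x).map_source hp))
    (mdifferentiableAt_extChart x hp)
  have h2 : (extChartAt (𝓡 3) x).symm ∘ extChartAt (𝓡 3) x =ᶠ[𝓝 p] id := by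
    filter_upwards [(isOpen_extChartAt_source x).mem_nhds hp] with q hq
    exact (extChartAt (𝓡 3) x).left_inv hq
  rw [h2.mfderiv_eq, mfderiv_id] at h1
  exact (congrArg (fun L => L a) h1).symm

lemma extChart_deriv_symm_comp {y : E3} (hy : y ∈ (extChartAt (𝓡 3) x).target) (a : E3) :
    mfderiv (𝓡 3) (𝓡 3) (extChartAt (𝓡 3) x) ((extChartAt (𝓡 3) x).symm y)
      (mfderiv (𝓡 3) (𝓡 3) (extChartAt (𝓡 3) x).symm y a) = a := by
  have h1 := mfderiv_comp y (mdifferentiableAt_extChart x ((extChartAt (𝓡 3) x).map_target hy))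
    (mdifferentiableAt_extChart_symm x hy)
  have h2 : extChartAt (𝓡 3) x ∘ (extChartAt (𝓡 3) x).symm =ᶠ[𝓝 y] id := by
    filter_upwards [(isOpen_extChartAt_target x).mem_nhds hy] with q hq
    exact (extChartAt (𝓡 3) x).right_inv hq
  rw [h2.mfderiv_eq, mfderiv_id] at h1
  exact (congrArg (fun L => L a) h1).symm

lemma contDiffOn_metricInChart (g : Metric 3 M) :
    ContDiffOn ℝ ∞ (metricInChart g x) (extChartAt (𝓡 3) x).target := by
  set σ := (extChartAt (𝓡 3) x).symm with hσdef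
  set T := (extChartAt (𝓡 3) x).target
  have hT : IsOpen T := isOpen_extChartAt_target x
  have hσ : ContMDiffOn (𝓡 3) (𝓡 3) ∞ σ T := contMDiffOn_extChartAt_symm x
  have hsec : ∀ a : E3, ContMDiffOn (𝓡 3) (𝓡 3).tangent ∞
      (fun w => (⟨σ w, mfderiv (𝓡 3) (𝓡 3) σ w a⟩ : TangentBundle (𝓡 3) M)) T := by
    intro a
    have ht := hσ.contMDiffOn_tangentMapWithin (m := ∞) (by norm_num) hT.uniqueMDiffOn
    have h0 : ContMDiff (𝓡 3) (𝓡 3).tangent ∞
        (fun w : E3 => (⟨w, a⟩ : TangentBundle (𝓡 3) E3)) :=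
      (contMDiff_vectorSpace_iff_contDiff (V := fun _ => a)).2 contDiff_const
    refine (ht.comp h0.contMDiffOn fun w hw => hw).congr fun w hw => ?_
    rw [Function.comp_apply, tangentMapWithin_eq_tangentMap (hT.uniqueMDiffWithinAt hw)
      (mdifferentiableAt_extChart_symm x hw)]
    rfl
  rw [contDiffOn_clm_apply]
  intro a
  rw [contDiffOn_clm_apply]
  intro b w hw
  have : ContMDiffWithinAt (𝓡 3) ((𝓡 3).prod 𝓘(ℝ, ℝ)) ∞
      (fun w => TotalSpace.mk' ℝ (E := Bundle.Trivial M ℝ) (σ w)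
        (g.inner (σ w) (mfderiv (𝓡 3) (𝓡 3) σ w a) (mfderiv (𝓡 3) (𝓡 3) σ w b))) T w := by
    apply ContMDiffWithinAt.clm_bundle_apply₂ (F₁ := E3) (F₂ := E3)
    · exact ContMDiffAt.comp_contMDiffWithinAt w g.contMDiff.contMDiffAt (hσ w hw)
    · exact hsec a w hw
    · exact hsec b w hw
  rw [contMDiffWithinAt_totalSpace] at this
  exact contMDiffWithinAt_iff_contDiffWithinAt.1 this.2

theorem metricInChart_near (g : Metric 3 M) (x : M) {y : E3}
    (hy : y ∈ (extChartAt (𝓡 3) x).target) : MetricNear (metricInChart g x) y := by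
  have hT := (isOpen_extChartAt_target x).mem_nhds hy
  refine ⟨?_, ?_, ?_⟩
  · filter_upwards [hT] with w hw
    exact (contDiffOn_metricInChart x g).contDiffAt ((isOpen_extChartAt_target x).mem_nhds hw)
  · filter_upwards [hT] with w _ a b
    exact g.symm _ _ _
  · filter_upwards [hT] with w hw a ha
    let D : E3 →L[ℝ] E3 := mfderiv (𝓡 3) (𝓡 3) (extChartAt (𝓡 3) x).symm w
    let D' : E3 →L[ℝ] E3 :=
      mfderiv (𝓡 3) (𝓡 3) (extChartAt (𝓡 3) x) ((extChartAt (𝓡 3) x).symm w)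
    let B : Form 3 := g.inner ((extChartAt (𝓡 3) x).symm w)
    have hB : ∀ u : E3, u ≠ 0 → 0 < B u u := g.pos ((extChartAt (𝓡 3) x).symm w)
    have hD : D' (D a) = a := extChart_deriv_symm_comp x hw a
    change 0 < B (D a) (D a)
    exact hB _ fun h0 => ha (by rw [← hD, h0, map_zero])

theorem inner_eq_metricInChart (g : Metric 3 M) (x : M) {p : M}
    (hp : p ∈ (extChartAt (𝓡 3) x).source) (a b : TangentSpace (𝓡 3) p) :
    g.inner p a b = metricInChart g x (extChartAt (𝓡 3) x p)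
      (mfderiv (𝓡 3) (𝓡 3) (extChartAt (𝓡 3) x) p a)
      (mfderiv (𝓡 3) (𝓡 3) (extChartAt (𝓡 3) x) p b) := by
  have key : ∀ (q : M), q = p → ∀ (u v : E3), u = a → v = b → g.inner q u v = g.inner p a b := by
    rintro q rfl u v rfl rfl; rfl
  exact (key _ ((extChartAt (𝓡 3) x).left_inv hp) _ _ (extChart_symm_deriv_comp x hp a)
    (extChart_symm_deriv_comp x hp b)).symm

theorem metricInChart_pullsBack (g : Metric 3 M) (x x' : M) {p : M}
    (hp : p ∈ (extChartAt (𝓡 3) x).source) (hp' : p ∈ (extChartAt (𝓡 3) x').source) :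
    PullsBack ((extChartAt (𝓡 3) x') ∘ (extChartAt (𝓡 3) x).symm)
      (metricInChart g x) (metricInChart g x') (extChartAt (𝓡 3) x p) := by
  set σ := (extChartAt (𝓡 3) x).symm
  have hpp : σ (extChartAt (𝓡 3) x p) = p := (extChartAt (𝓡 3) x).left_inv hp
  have hev : ∀ᶠ w in 𝓝 (extChartAt (𝓡 3) x p),
      w ∈ (extChartAt (𝓡 3) x).target ∧ σ w ∈ (extChartAt (𝓡 3) x').source :=
    ((isOpen_extChartAt_target x).eventually_mem ((extChartAt (𝓡 3) x).map_source hp)).and
      ((continuousAt_extChartAt_symm' hp).preimage_mem_nhds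
        ((isOpen_extChartAt_source x').mem_nhds (hpp.symm ▸ hp')))
  refine ⟨?_, ?_, ?_⟩
  · refine contMDiffAt_iff_contDiffAt.1 ?_
    exact ((contMDiffOn_extChart x').contMDiffAt
      ((isOpen_extChartAt_source x').mem_nhds (hpp.symm ▸ hp'))).comp _
      ((contMDiffOn_extChartAt_symm x).contMDiffAt
        ((isOpen_extChartAt_target x).mem_nhds ((extChartAt (𝓡 3) x).map_source hp)))
  · rw [Function.comp_apply, hpp]
    exact metricInChart_near g x' ((extChartAt (𝓡 3) x').map_source hp')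
  · filter_upwards [hev] with w hw
    have hd : fderiv ℝ (extChartAt (𝓡 3) x' ∘ σ) w =
        (mfderiv (𝓡 3) (𝓡 3) (extChartAt (𝓡 3) x') (σ w)).comp (mfderiv (𝓡 3) (𝓡 3) σ w) := by
      rw [← mfderiv_eq_fderiv,
        mfderiv_comp w (mdifferentiableAt_extChart x' hw.2) (mdifferentiableAt_extChart_symm x hw.1)]
    refine ContinuousLinearMap.ext fun a => ContinuousLinearMap.ext fun b => ?_
    rw [ContinuousLinearMap.bilinearComp_apply, hd]
    exact inner_eq_metricInChart g x' hw.2 (mfderiv (𝓡 3) (𝓡 3) σ w a)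
      (mfderiv (𝓡 3) (𝓡 3) σ w b)

theorem curveNear_chart (g : Metric 3 M) {γ : ℝ → M} {J : ∀ t, TangentSpace (𝓡 3) (γ t)}
    (hγ : ContMDiff 𝓘(ℝ) (𝓡 3) ∞ γ)
    (hJ : ContMDiff 𝓘(ℝ) (𝓡 3).tangent ∞ (fun t => (⟨γ t, J t⟩ : TangentBundle (𝓡 3) M)))
    (x : M) {t : ℝ} (ht : γ t ∈ (extChartAt (𝓡 3) x).source) :
    CurveNear (metricInChart g x) (curveIn γ x) (fieldInChart J x) t := by
  have hS : IsOpen (extChartAt (𝓡 3) x).source := isOpen_extChartAt_source x
  refine ⟨metricInChart_near g x ((extChartAt (𝓡 3) x).map_source ht), ?_, ?_⟩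
  · exact contMDiffAt_iff_contDiffAt.1
      (((contMDiffOn_extChart x).contMDiffAt (hS.mem_nhds ht)).comp t (hγ t))
  · have hT := (contMDiffOn_extChart x).contMDiffOn_tangentMapWithin (m := ∞)
      (by norm_num) hS.uniqueMDiffOn
    set W : Set ℝ := γ ⁻¹' (extChartAt (𝓡 3) x).source
    have hW : IsOpen W := hS.preimage hγ.continuous
    have h2 := (contMDiff_snd_tangentBundle_modelSpace E3 (𝓡 3) (n := ∞)).comp_contMDiffOn
      (hT.comp hJ.contMDiffOn fun s hs => hs : ContMDiffOn 𝓘(ℝ) (𝓡 3).tangent ∞ _ W)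
    refine contMDiffAt_iff_contDiffAt.1 ((h2.congr fun s hs => ?_).contMDiffAt (hW.mem_nhds ht))
    exact (congrArg (fun q : TangentBundle (𝓡 3) E3 => (q.2 : E3))
      (tangentMapWithin_eq_tangentMap (p := (⟨γ s, J s⟩ : TangentBundle (𝓡 3) M))
        (hS.uniqueMDiffWithinAt hs) (mdifferentiableAt_extChart x hs))).symm

omit [IsManifold (𝓡 3) ∞ M] in
/-- the covariant derivative only depends on the germs -/
lemma covDeriv_congr_germ {G : E3 → Form 3} {c c' w w' : ℝ → E3} {t : ℝ} (hc : c =ᶠ[𝓝 t] c')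
    (hw : w =ᶠ[𝓝 t] w') : covDeriv G c w t = covDeriv G c' w' t := by
  simp only [covDeriv, hw.deriv_eq, hc.deriv_eq, hc.eq_of_nhds, hw.eq_of_nhds]

omit [IsManifold (𝓡 3) ∞ M] in
/-- the change of chart along a curve -/
lemma curveIn_change_eventuallyEq {γ : ℝ → M} (hγ : Continuous γ) (x' x : M) {t : ℝ}
    (ht' : γ t ∈ (extChartAt (𝓡 3) x').source) :
    (fun s => (extChartAt (𝓡 3) x ∘ (extChartAt (𝓡 3) x').symm) (curveIn γ x' s))
      =ᶠ[𝓝 t] curveIn γ x := by
  filter_upwards [((isOpen_extChartAt_source x').preimage hγ).mem_nhds ht'] with s hs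
  show extChartAt (𝓡 3) x ((extChartAt (𝓡 3) x').symm (extChartAt (𝓡 3) x' (γ s))) = _
  rw [(extChartAt (𝓡 3) x').left_inv hs]
  rfl

/-- the geodesic equation does not depend on the chart -/
theorem geoAt_chart (g : Metric 3 M) {γ : ℝ → M} (hγ : IsGeodesic g γ) (x : M) {t : ℝ}
    (ht : γ t ∈ (extChartAt (𝓡 3) x).source) :
    GeoAt (metricInChart g x) (curveIn γ x) t := by
  set x' := γ t
  have ht' : γ t ∈ (extChartAt (𝓡 3) x').source := mem_extChartAt_source x'
  set z := curveIn γ x'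
  set φ := extChartAt (𝓡 3) x ∘ (extChartAt (𝓡 3) x').symm
  have hp := metricInChart_pullsBack g x' x ht' ht
  have hz : ContDiffAt ℝ ∞ z t := contMDiffAt_iff_contDiffAt.1
    (((contMDiffOn_extChart x').contMDiffAt ((isOpen_extChartAt_source x').mem_nhds ht')).comp t
      (hγ.1 t))
  have hd : ContDiffAt ℝ ∞ (deriv z) t := by
    have h := (hz.fderiv_right (m := ∞) (by norm_num)).clm_apply
      (contDiffAt_const (c := (1 : ℝ)))
    exact h
  have h0 : covDeriv (metricInChart g x') z (deriv z) t = 0 := hγ.2 t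
  have hN : CurveNear (metricInChart g x') z (deriv z) t :=
    ⟨metricInChart_near g x' ((extChartAt (𝓡 3) x').map_source ht'), hz, hd⟩
  have h2 := covDeriv_transform hN hp
  rw [h0, map_zero] at h2
  have hev : ∀ᶠ s in 𝓝 t, DifferentiableAt ℝ φ (z s) ∧ DifferentiableAt ℝ z s := by
    have hev1 : ∀ᶠ w in 𝓝 (z t), DifferentiableAt ℝ φ w :=
      ((hp.1.of_le (m := 1) (by norm_num)).eventually (by norm_num)).mono
        fun w h => h.differentiableAt (by norm_num)
    have hev2 : ∀ᶠ s in 𝓝 t, DifferentiableAt ℝ z s :=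
      ((hz.of_le (m := 1) (by norm_num)).eventually (by norm_num)).mono
        fun s h => h.differentiableAt (by norm_num)
    exact (hz.continuousAt.eventually hev1).and hev2
  have hc : (fun s => φ (z s)) =ᶠ[𝓝 t] curveIn γ x :=
    curveIn_change_eventuallyEq hγ.1.continuous x' x ht'
  have hw : (fun s => fderiv ℝ φ (z s) (deriv z s)) =ᶠ[𝓝 t] deriv (curveIn γ x) := by
    filter_upwards [hev, hc.eventuallyEq_nhds] with s hs hs'
    rw [← hs'.deriv_eq]
    exact (hs.1.hasFDerivAt.comp_hasDerivAt s hs.2.hasDerivAt).deriv.symm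
  rw [GeoAt, ← covDeriv_congr_germ hc hw]
  exact h2

/-- `g(J, DJ)` and `g(DJ, DJ)` do not depend on the chart -/
theorem fStd_chart (g : Metric 3 M) {γ : ℝ → M} {J : ∀ t, TangentSpace (𝓡 3) (γ t)}
    (hγ : ContMDiff 𝓘(ℝ) (𝓡 3) ∞ γ)
    (hJ : ContMDiff 𝓘(ℝ) (𝓡 3).tangent ∞ (fun t => (⟨γ t, J t⟩ : TangentBundle (𝓡 3) M)))
    (x : M) {t : ℝ} (ht : γ t ∈ (extChartAt (𝓡 3) x).source) :
    fStd (metricInChart g x) (curveIn γ x) (fieldInChart J x) t
        = fStd (metricInChart g (γ t)) (curveIn γ (γ t)) (fieldInChart J (γ t)) t ∧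
      metricInChart g x (curveIn γ x t)
          (covDeriv (metricInChart g x) (curveIn γ x) (fieldInChart J x) t)
          (covDeriv (metricInChart g x) (curveIn γ x) (fieldInChart J x) t)
        = metricInChart g (γ t) (curveIn γ (γ t) t)
          (covDeriv (metricInChart g (γ t)) (curveIn γ (γ t)) (fieldInChart J (γ t)) t)
          (covDeriv (metricInChart g (γ t)) (curveIn γ (γ t)) (fieldInChart J (γ t)) t) := by
  set x' := γ t
  have ht' : γ t ∈ (extChartAt (𝓡 3) x').source := mem_extChartAt_source x'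
  set z := curveIn γ x'
  set X := fieldInChart J x'
  set φ := extChartAt (𝓡 3) x ∘ (extChartAt (𝓡 3) x').symm
  have hp := metricInChart_pullsBack g x' x ht' ht
  have hN : CurveNear (metricInChart g x') z X t := curveNear_chart g hγ hJ x' ht'
  have hc : (fun s => φ (z s)) =ᶠ[𝓝 t] curveIn γ x :=
    curveIn_change_eventuallyEq hγ.continuous x' x ht'
  have hw : (fun s => fderiv ℝ φ (z s) (X s)) =ᶠ[𝓝 t] fieldInChart J x := by
    filter_upwards [((isOpen_extChartAt_source x').preimage hγ.continuous).mem_nhds ht',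
      ((isOpen_extChartAt_source x).preimage hγ.continuous).mem_nhds ht] with s hs' hs
    have hzs : (extChartAt (𝓡 3) x').symm (z s) = γ s := (extChartAt (𝓡 3) x').left_inv hs'
    rw [← mfderiv_eq_fderiv, mfderiv_comp (z s) (mdifferentiableAt_extChart x (hzs.symm ▸ hs))
      (mdifferentiableAt_extChart_symm x' ((extChartAt (𝓡 3) x').map_source hs'))]
    have key : ∀ q : M, q = γ s → ∀ u : E3, u = J s →
        (mfderiv (𝓡 3) (𝓡 3) (extChartAt (𝓡 3) x) q u : E3) = fieldInChart J x s := by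
      rintro q rfl u rfl; rfl
    exact key _ hzs _ (extChart_symm_deriv_comp x' hs' (J s))
  have hcov := covDeriv_transform hN hp
  rw [covDeriv_congr_germ hc hw] at hcov
  have hG := hp.2.2.self_of_nhds
  have hX : fieldInChart J x t = fderiv ℝ φ (z t) (X t) := hw.eq_of_nhds.symm
  have hzt : curveIn γ x t = φ (z t) := hc.eq_of_nhds.symm
  refine ⟨?_, ?_⟩
  · rw [fStd, fStd, hzt, hX, hcov]
    exact (congrArg (fun F : Form 3 => F (X t) (covDeriv (metricInChart g x') z X t)) hG).symm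
  · rw [hzt, hcov]
    exact (congrArg (fun F : Form 3 => F (covDeriv (metricInChart g x') z X t)
      (covDeriv (metricInChart g x') z X t)) hG).symm

end Vale.Agent.P255
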