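import Vale.Agent.P255.Statement

/-!
# P255: coordinate notions used in the proofs (not in the statement)

Everything is pointwise: the equations are only assumed at the time under consideration, as in
`IsGeodesic` and `IsJacobi`.
-/

open scoped Manifold ContDiff
open Bundle Set Filter Topology

namespace Vale.Agent.P255

/-- `R^3` as a Euclidean space -/
abbrev E3 := EE 3

/-- a smooth, symmetric, positive definite field of forms near `y` -/
structure MetricNear (G : E3 → Form 3) (y : E3) : Prop where
  smooth : ∀ᶠ w in 𝓝 y, ContDiffAt ℝ ∞ G w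
  symm : ∀ᶠ w in 𝓝 y, ∀ a b, G w a b = G w b a
  pos : ∀ᶠ w in 𝓝 y, ∀ a, a ≠ 0 → 0 < G w a a

/-- geodesic equation at time `t` -/
def GeoAt (G : E3 → Form 3) (z : ℝ → E3) (t : ℝ) : Prop := covDeriv G z (deriv z) t = 0

/-- Jacobi equation at time `t` -/
def JacAt (G : E3 → Form 3) (z X : ℝ → E3) (t : ℝ) : Prop :=
  covDeriv G z (covDeriv G z X) t + curv G (z t) (X t) (deriv z t) (deriv z t) = 0

/-- `g(R(a,b)b,a)` -/
noncomputable def secForm (G : E3 → Form 3) (y a b : E3) : ℝ := G y (curv G y a b b) a

/-- `g(J, DJ)` -/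
noncomputable def fStd (G : E3 → Form 3) (z X : ℝ → E3) (t : ℝ) : ℝ :=
  G (z t) (X t) (covDeriv G z X t)

/-- a curve and a field, both smooth near `t`, inside the domain of a metric -/
structure CurveNear (G : E3 → Form 3) (z X : ℝ → E3) (t : ℝ) : Prop where
  metric : MetricNear G (z t)
  curve : ContDiffAt ℝ ∞ z t
  field : ContDiffAt ℝ ∞ X t

end Vale.Agent.P255
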